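import Vale.Agent.P192.H479.RL3

/-!
# P192: the average potential is piecewise constant in the second coordinate
-/

namespace Vale.Agent.P192.H237

open Vale.Agent.P192.H479

section general

variable {G : Type} [Group G] {X : Type} (Ψ : G →* Equiv.Perm ((X × ℝ) × ℝ))
  (hΨ : ∀ g x r, Ψ g (x, r) = ((Ψ g (x, 0)).1, (Ψ g (x, 0)).2 + r)) (mu : ℝ)

/-- `Ψ g` is the identity outside of `[0, mu)` and, on the bands of a finite set, a translation of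
the second coordinate, with constant first coordinate and constant cocycle. -/
def Reg (g : G) : Prop :=
  (∀ k y, y ∉ Set.Ico 0 mu → Ψ g ((k, y), 0) = ((k, y), 0)) ∧
  ∃ B T : Set ℝ, B.Finite ∧ T.Finite ∧
    (∀ k y, y ∈ Set.Ico 0 mu → (Ψ g ((k, y), 0)).1.2 - y ∈ T) ∧
    ∀ k y y', y ∈ Set.Ico 0 mu → y' ∈ Set.Ico 0 mu → (∀ b ∈ B, b ≤ y ↔ b ≤ y') →
      (Ψ g ((k, y'), 0)).1.1 = (Ψ g ((k, y), 0)).1.1 ∧
      (Ψ g ((k, y'), 0)).1.2 - y' = (Ψ g ((k, y), 0)).1.2 - y ∧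
      (Ψ g ((k, y'), 0)).2 = (Ψ g ((k, y), 0)).2

variable {Ψ mu}

theorem reg_one : Reg Ψ mu 1 := by
  refine ⟨fun k y _ => by rw [map_one]; rfl, ∅, {0}, Set.finite_empty, Set.finite_singleton _,
    fun k y _ => ?_, fun k y y' _ _ _ => ?_⟩
  · rw [map_one]
    simp
  · rw [map_one]
    simp

include hΨ in
theorem stays {g : G} (hg : ∀ k y, y ∉ Set.Ico 0 mu → Ψ g ((k, y), 0) = ((k, y), 0)) (k : X)
    {y : ℝ} (hy : y ∈ Set.Ico 0 mu) (r : ℝ) : (Ψ g ((k, y), r)).1.2 ∈ Set.Ico 0 mu := by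
  by_contra hcon
  rcases hz : Ψ g ((k, y), r) with ⟨⟨k', y'⟩, r'⟩
  rw [hz] at hcon
  change y' ∉ Set.Ico 0 mu at hcon
  have h1 : Ψ g ((k', y'), r') = ((k', y'), r') := by
    rw [hΨ, hg k' y' hcon, zero_add]
  have h2 := (Ψ g).injective (hz.trans h1.symm)
  have h3 : y = y' := congrArg (fun z : (X × ℝ) × ℝ => z.1.2) h2
  exact hcon (h3 ▸ hy)

include hΨ in
theorem reg_mul {a b : G} (ha : Reg Ψ mu a) (hb : Reg Ψ mu b) : Reg Ψ mu (a * b) := by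
  obtain ⟨ha0, Ba, Ta, hBa, hTa, ha1, ha2⟩ := ha
  obtain ⟨hb0, Bb, Tb, hBb, hTb, hb1, hb2⟩ := hb
  have hab : ∀ z : X × ℝ, Ψ (a * b) (z, 0) =
      ((Ψ a ((Ψ b (z, 0)).1, 0)).1, (Ψ a ((Ψ b (z, 0)).1, 0)).2 + (Ψ b (z, 0)).2) := by
    intro z
    rw [map_mul, Equiv.Perm.mul_apply]
    conv_lhs => rw [← Prod.mk.eta (p := Ψ b (z, 0)), hΨ]
  refine ⟨fun k y hy => ?_, Bb ∪ Set.image2 (fun c t => c - t) Ba Tb,
    Set.image2 (fun s t => s + t) Ta Tb, hBb.union (hBa.image2 _ hTb), hTa.image2 _ hTb,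
    fun k y hy => ?_, fun k y y' hy hy' h => ?_⟩
  · rw [map_mul, Equiv.Perm.mul_apply, hb0 k y hy, ha0 k y hy]
  · have h1 := stays hΨ hb0 k hy 0
    rw [hab]
    refine ⟨_, ha1 (Ψ b ((k, y), 0)).1.1 (Ψ b ((k, y), 0)).1.2 h1, _, hb1 k y hy, ?_⟩
    change _ = (Ψ a (((Ψ b ((k, y), 0)).1.1, (Ψ b ((k, y), 0)).1.2), 0)).1.2 - y
    ring
  · obtain ⟨e1, e2, e3⟩ := hb2 k y y' hy hy' (fun c hc => h c (Or.inl hc))
    have h1 := stays hΨ hb0 k hy 0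
    have h1' := stays hΨ hb0 k hy' 0
    set t := (Ψ b ((k, y), 0)).1.2 - y with ht
    have e4 : (Ψ b ((k, y), 0)).1.2 = y + t := by rw [ht]; ring
    have e5 : (Ψ b ((k, y'), 0)).1.2 = y' + t := by linarith
    have h2 := ha2 (Ψ b ((k, y), 0)).1.1 (Ψ b ((k, y), 0)).1.2 (Ψ b ((k, y'), 0)).1.2 h1 h1'
      (fun c hc => by
        have h3 := h (c - t) (Or.inr ⟨c, hc, t, hb1 k y hy, rfl⟩)
        rw [e4, e5]
        constructor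
        · intro h4
          have := h3.1 (by linarith)
          linarith
        · intro h4
          have := h3.2 (by linarith)
          linarith)
    have e6 : (Ψ b ((k, y'), 0)).1 = ((Ψ b ((k, y), 0)).1.1, (Ψ b ((k, y'), 0)).1.2) :=
      Prod.ext e1 rfl
    have e7 : (Ψ b ((k, y), 0)).1 = ((Ψ b ((k, y), 0)).1.1, (Ψ b ((k, y), 0)).1.2) := rfl
    obtain ⟨f1, f2, f3⟩ := h2
    rw [hab, hab, e6]
    refine ⟨f1, ?_, ?_⟩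
    · change (Ψ a (((Ψ b ((k, y), 0)).1.1, (Ψ b ((k, y'), 0)).1.2), 0)).1.2 - y' =
        (Ψ a (((Ψ b ((k, y), 0)).1.1, (Ψ b ((k, y), 0)).1.2), 0)).1.2 - y
      linarith
    · change (Ψ a (((Ψ b ((k, y), 0)).1.1, (Ψ b ((k, y'), 0)).1.2), 0)).2 + (Ψ b ((k, y'), 0)).2 =
        (Ψ a (((Ψ b ((k, y), 0)).1.1, (Ψ b ((k, y), 0)).1.2), 0)).2 + (Ψ b ((k, y), 0)).2
      rw [f3, e3]

include hΨ in
theorem reg_inv {a : G} (ha : Reg Ψ mu a) : Reg Ψ mu a⁻¹ := by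
  obtain ⟨ha0, B, T, hB, hT, ha1, ha2⟩ := ha
  have hinv : ∀ z w, Ψ a z = w → Ψ a⁻¹ w = z := by
    intro z w h
    rw [← h, ← Equiv.Perm.mul_apply, ← map_mul, inv_mul_cancel, map_one]
    rfl
  have h0 : ∀ k y, y ∉ Set.Ico 0 mu → Ψ a⁻¹ ((k, y), 0) = ((k, y), 0) :=
    fun k y hy => hinv _ _ (ha0 k y hy)
  -- the preimage
  have hpre : ∀ k y, y ∈ Set.Ico 0 mu → ∃ k1 y1 r1, y1 ∈ Set.Ico 0 mu ∧
      Ψ a ((k1, y1), 0) = ((k, y), -r1) ∧ Ψ a⁻¹ ((k, y), 0) = ((k1, y1), r1) := by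
    intro k y hy
    rcases hz : Ψ a⁻¹ ((k, y), 0) with ⟨⟨k1, y1⟩, r1⟩
    have h1 : y1 ∈ Set.Ico 0 mu := by
      have := stays hΨ h0 k hy 0
      rw [hz] at this
      exact this
    refine ⟨k1, y1, r1, h1, ?_, rfl⟩
    have h2 : Ψ a ((k1, y1), r1) = ((k, y), 0) := by
      rw [← hz, ← Equiv.Perm.mul_apply, ← map_mul, mul_inv_cancel, map_one]
      rfl
    rw [hΨ] at h2
    have h3 := congrArg Prod.fst h2
    have h4 := congrArg Prod.snd h2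
    change _ + r1 = 0 at h4
    exact Prod.ext h3 (by change _ = -r1; linarith)
  refine ⟨h0, Set.image2 (fun b t => b + t) (B ∪ {0, mu}) T, (fun t => -t) '' T,
    (hB.union (Set.toFinite _)).image2 _ hT, hT.image _, fun k y hy => ?_,
    fun k y y' hy hy' h => ?_⟩
  · obtain ⟨k1, y1, r1, hy1, h1, h2⟩ := hpre k y hy
    refine ⟨_, ha1 k1 y1 hy1, ?_⟩
    rw [h1, h2]
    change -(y - y1) = y1 - y
    ring
  · obtain ⟨k1, y1, r1, hy1, h1, h2⟩ := hpre k y hy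
    have ht : y - y1 ∈ T := by
      have := ha1 k1 y1 hy1
      rw [h1] at this
      exact this
    have hb : ∀ b ∈ B ∪ {0, mu}, b ≤ y1 ↔ b ≤ y1 + (y' - y) := by
      intro b hb
      have h3 := h (b + (y - y1)) ⟨b, hb, _, ht, rfl⟩
      constructor
      · intro h4
        have := h3.1 (by linarith)
        linarith
      · intro h4
        have := h3.2 (by linarith)
        linarith
    have hy1' : y1 + (y' - y) ∈ Set.Ico 0 mu := by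
      refine ⟨(hb 0 (Or.inr (Or.inl rfl))).1 hy1.1, ?_⟩
      by_contra hcon
      exact absurd ((hb mu (Or.inr (Or.inr rfl))).2 (not_lt.1 hcon)) (not_le.2 hy1.2)
    obtain ⟨f1, f2, f3⟩ := ha2 k1 y1 (y1 + (y' - y)) hy1 hy1' (fun b hbB => hb b (Or.inl hbB))
    rw [h1] at f1 f2 f3
    change _ = k at f1
    change _ - (y1 + (y' - y)) = y - y1 at f2
    change _ = -r1 at f3
    have h5 : Ψ a ((k1, y1 + (y' - y)), 0) = ((k, y'), -r1) :=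
      Prod.ext (Prod.ext f1 (by change _ = y'; linarith)) f3
    have h6 : Ψ a⁻¹ ((k, y'), 0) = ((k1, y1 + (y' - y)), r1) := by
      apply hinv
      rw [hΨ, h5]
      exact Prod.ext rfl (by change -r1 + r1 = 0; ring)
    rw [h6, h2]
    refine ⟨rfl, ?_, rfl⟩
    change y1 + (y' - y) - y' = y1 - y
    ring

include hΨ in
theorem reg_all {M : Set G} (hgen : Subgroup.closure M = ⊤) (h : ∀ a ∈ M, Reg Ψ mu a) (g : G) :
    Reg Ψ mu g :=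
  gen_induct hgen h reg_one (fun _ _ => reg_mul hΨ) (fun _ => reg_inv hΨ) g

/-- the average potential -/
theorem avg_band [Fintype Ψ.range] (h : ∀ g, Reg Ψ mu g) :
    ∃ B3 : Set ℝ, B3.Finite ∧ ∀ k y y', y ∈ Set.Ico 0 mu → y' ∈ Set.Ico 0 mu →
      (∀ b ∈ B3, b ≤ y ↔ b ≤ y') → avg Ψ (k, y) = avg Ψ (k, y') := by
  have h1 : ∀ q : Ψ.range, ∃ B : Set ℝ, B.Finite ∧ ∀ k y y', y ∈ Set.Ico 0 mu →
      y' ∈ Set.Ico 0 mu → (∀ b ∈ B, b ≤ y ↔ b ≤ y') →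
      ((q : Equiv.Perm ((X × ℝ) × ℝ)) ((k, y), 0)).2 =
        ((q : Equiv.Perm ((X × ℝ) × ℝ)) ((k, y'), 0)).2 := by
    rintro ⟨_, g, rfl⟩
    obtain ⟨_, B, T, hB, _, _, h2⟩ := h g
    exact ⟨B, hB, fun k y y' hy hy' hb => (h2 k y y' hy hy' hb).2.2.symm⟩
  choose B hB hBB using h1
  refine ⟨⋃ q, B q, Set.finite_iUnion hB, fun k y y' hy hy' hb => ?_⟩
  unfold avg
  rw [Finset.sum_congr rfl fun q _ => hBB q k y y' hy hy'
    (fun b hb' => hb b (Set.mem_iUnion.2 ⟨q, hb'⟩))]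

/-- outside of `[0, mu)` the average potential is zero -/
theorem avg_out [Fintype Ψ.range] (h : ∀ g, Reg Ψ mu g) (k : X) {y : ℝ}
    (hy : y ∉ Set.Ico 0 mu) : avg Ψ (k, y) = 0 := by
  unfold avg
  rw [Finset.sum_eq_zero]
  · simp
  · rintro ⟨_, g, rfl⟩ _
    change (Ψ g ((k, y), 0)).2 = 0
    rw [(h g).1 k y hy]

end general

variable {G : Type} [Group G] (D : RD G ℝ)

/-- every element of the group is regular on the mixed model -/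
theorem reg_mixed (hgen : Subgroup.closure D.M = ⊤) (Ψ : G →* Equiv.Perm ((D.Pt × ℝ) × ℝ))
    (h1 : ∀ a ∈ D.M, ∀ z, Ψ a z = D.φ1 a z)
    (hΨ : ∀ g x r, Ψ g (x, r) = ((Ψ g (x, 0)).1, (Ψ g (x, 0)).2 + r)) (mu : ℝ)
    (h2 : ∀ a ∈ D.M, ∃ B2 T2 : Set ℝ, B2.Finite ∧ T2.Finite ∧
      ∀ k, 0 ≤ k → k < D.ν D.L → ∀ y y', y ∈ Set.Ico 0 mu → y' ∈ Set.Ico 0 mu →
        (∀ b ∈ B2, b ≤ y ↔ b ≤ y') →
        D.act a k y' = D.act a k y ∧ D.tr a k y' = D.tr a k y ∧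
          D.act2 a k y' - y' = D.act2 a k y - y ∧ D.act2 a k y - y ∈ T2)
    (h3 : ∀ a ∈ D.M, ∀ k, 0 ≤ k → k < D.ν D.L → ∀ y, y ∉ Set.Ico 0 mu →
      D.act a k y = k ∧ D.tr a k y = 0 ∧ D.act2 a k y = y) (g : G) : Reg Ψ mu g := by
  refine reg_all hΨ hgen (fun a ha => ?_) g
  have e : ∀ (k : D.Pt) (y : ℝ), ((Ψ a ((k, y), 0)).1.1 : ℤ) = D.act a k.1 y ∧
      (Ψ a ((k, y), 0)).1.2 = D.act2 a k.1 y ∧ (Ψ a ((k, y), 0)).2 = D.tr a k.1 y := by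
    intro k y
    rw [h1 a ha]
    have h4 := D.φ0_M ha (k, y)
    exact ⟨h4.1, h4.2, add_zero _⟩
  obtain ⟨B2, T2, hB2, hT2, h4⟩ := h2 a ha
  refine ⟨fun k y hy => ?_, B2, T2, hB2, hT2, fun k y hy => ?_, fun k y y' hy hy' hb => ?_⟩
  · obtain ⟨f1, f2, f3⟩ := h3 a ha k.1 k.2.1 k.2.2 y hy
    obtain ⟨e1, e2, e3⟩ := e k y
    exact Prod.ext (Prod.ext (Subtype.ext (e1.trans f1)) (e2.trans f3)) (e3.trans f2)
  · rw [(e k y).2.1]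
    exact (h4 k.1 k.2.1 k.2.2 y y hy hy (fun _ _ => Iff.rfl)).2.2.2
  · obtain ⟨f1, f2, f3, _⟩ := h4 k.1 k.2.1 k.2.2 y y' hy hy' hb
    obtain ⟨e1, e2, e3⟩ := e k y
    obtain ⟨e1', e2', e3'⟩ := e k y'
    refine ⟨Subtype.ext (by rw [e1', e1, f1]), by rw [e2', e2, f3], by rw [e3', e3, f2]⟩

/-- **[PIE]** the average potential of the mixed model is constant on the bands of a finite set. -/
theorem pie (hgen : Subgroup.closure D.M = ⊤) (Ψ : G →* Equiv.Perm ((D.Pt × ℝ) × ℝ))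
    [Fintype Ψ.range] (h1 : ∀ a ∈ D.M, ∀ z, Ψ a z = D.φ1 a z)
    (hΨ : ∀ g x r, Ψ g (x, r) = ((Ψ g (x, 0)).1, (Ψ g (x, 0)).2 + r)) (mu : ℝ)
    (h2 : ∀ a ∈ D.M, ∃ B2 T2 : Set ℝ, B2.Finite ∧ T2.Finite ∧
      ∀ k, 0 ≤ k → k < D.ν D.L → ∀ y y', y ∈ Set.Ico 0 mu → y' ∈ Set.Ico 0 mu →
        (∀ b ∈ B2, b ≤ y ↔ b ≤ y') →
        D.act a k y' = D.act a k y ∧ D.tr a k y' = D.tr a k y ∧
          D.act2 a k y' - y' = D.act2 a k y - y ∧ D.act2 a k y - y ∈ T2)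
    (h3 : ∀ a ∈ D.M, ∀ k, 0 ≤ k → k < D.ν D.L → ∀ y, y ∉ Set.Ico 0 mu →
      D.act a k y = k ∧ D.tr a k y = 0 ∧ D.act2 a k y = y) :
    ∃ B3 : Set ℝ, B3.Finite ∧ ∀ k, 0 ≤ k → k < D.ν D.L → ∀ y y', y ∈ Set.Ico 0 mu →
      y' ∈ Set.Ico 0 mu → (∀ b ∈ B3, b ≤ y ↔ b ≤ y') → D.pos Ψ k y = D.pos Ψ k y' := by
  have key := reg_mixed D hgen Ψ h1 hΨ mu h2 h3
  obtain ⟨B3, hB3, h5⟩ := avg_band key
  refine ⟨B3, hB3, fun k hk hkL y y' hy hy' hb => ?_⟩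
  rw [D.pos_of Ψ ⟨hk, hkL⟩, D.pos_of Ψ ⟨hk, hkL⟩]
  exact h5 _ y y' hy hy' hb

/-- outside of `[0, mu)` the potential is zero -/
theorem pos_out (hgen : Subgroup.closure D.M = ⊤) (Ψ : G →* Equiv.Perm ((D.Pt × ℝ) × ℝ))
    [Fintype Ψ.range] (h1 : ∀ a ∈ D.M, ∀ z, Ψ a z = D.φ1 a z)
    (hΨ : ∀ g x r, Ψ g (x, r) = ((Ψ g (x, 0)).1, (Ψ g (x, 0)).2 + r)) (mu : ℝ)
    (h2 : ∀ a ∈ D.M, ∃ B2 T2 : Set ℝ, B2.Finite ∧ T2.Finite ∧
      ∀ k, 0 ≤ k → k < D.ν D.L → ∀ y y', y ∈ Set.Ico 0 mu → y' ∈ Set.Ico 0 mu →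
        (∀ b ∈ B2, b ≤ y ↔ b ≤ y') →
        D.act a k y' = D.act a k y ∧ D.tr a k y' = D.tr a k y ∧
          D.act2 a k y' - y' = D.act2 a k y - y ∧ D.act2 a k y - y ∈ T2)
    (h3 : ∀ a ∈ D.M, ∀ k, 0 ≤ k → k < D.ν D.L → ∀ y, y ∉ Set.Ico 0 mu →
      D.act a k y = k ∧ D.tr a k y = 0 ∧ D.act2 a k y = y)
    {k : ℤ} {y : ℝ} (hy : y ∉ Set.Ico 0 mu) : D.pos Ψ k y = 0 := by
  by_cases hk : 0 ≤ k ∧ k < D.ν D.L
  · rw [D.pos_of Ψ hk]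
    exact avg_out (reg_mixed D hgen Ψ h1 hΨ mu h2 h3) _ hy
  · exact dif_neg hk

end Vale.Agent.P192.H237
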