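import Vale.Agent.P192.H176.RL5

/-!
# P192: counters

`actW T`: the powers of the permutations `T i` on the factors of a product; the pieces are given by
one finite colouring of each factor.
-/

namespace Vale.Agent.P192.H237

open Vale.Agent.P192.RL5

variable {k : ℕ} {W : Fin k → Type} (T : ∀ i, Equiv.Perm (W i))

/-- the powers of the permutations `T i` -/
def actW : (Fin k → Multiplicative ℤ) →* Equiv.Perm (∀ i, W i) where
  toFun z := Equiv.piCongrRight fun i => T i ^ (z i).toAdd
  map_one' := by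
    ext w i
    simp
  map_mul' s t := by
    ext w i
    simp [zpow_add]

@[simp] theorem actW_apply (z : Fin k → Multiplicative ℤ) (w : ∀ i, W i) (i : Fin k) :
    actW T z w i = (T i ^ (z i).toAdd) (w i) := rfl

theorem actW_apply' (z : Fin k → Multiplicative ℤ) (w : ∀ i, W i) :
    actW T z w = fun i => (T i ^ (z i).toAdd) (w i) := rfl

/-- one finite colouring of each factor -/
def regW : Reg (actW T) Set.univ where
  R := {r | ∃ (m : ℕ) (c : ∀ i, W i → Fin m), r = fun w w' => ∀ i, c i (w i) = c i (w' i)}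
  ne := ⟨_, 1, fun _ _ => 0, rfl⟩
  refl := by
    rintro _ ⟨m, c, rfl⟩ x _ i
    rfl
  inf := by
    rintro _ ⟨m, c, rfl⟩ _ ⟨m', c', rfl⟩
    refine ⟨_, ⟨m * m', fun i x => finProdFinEquiv (c i x, c' i x), rfl⟩, fun x _ y _ h => ?_⟩
    exact ⟨fun i => congrArg Prod.fst (finProdFinEquiv.injective (h i)),
      fun i => congrArg Prod.snd (finProdFinEquiv.injective (h i))⟩
  pull := by
    rintro _ ⟨m, c, rfl⟩ z
    exact ⟨_, ⟨m, fun i x => c i ((T i ^ (z i).toAdd) x), rfl⟩, fun x _ y _ hxy _ =>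
      ⟨trivial, hxy⟩⟩

theorem mem_regW {r : (∀ i, W i) → (∀ i, W i) → Prop} :
    r ∈ (regW T).R ↔ ∃ (m : ℕ) (c : ∀ i, W i → Fin m),
      r = fun w w' => ∀ i, c i (w i) = c i (w' i) := Iff.rfl

end Vale.Agent.P192.H237
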